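import Vale.Agent.P221.E.H509.Iff2
import Vale.Agent.P251.St.Result2

/-!
# P221: fp-spectra and the thick subcategory generated by `BP⟨n⟩`

There is a stable homotopy category with a suspension spectrum functor; in each of them, for every
prime `p`, every `n ≥ 0` and every standard form `B` of the `p`-completed truncated Brown-Peterson
spectrum `BP⟨n⟩`: an fp-spectrum `X` of fp-type at most `n` lies in the thick subcategory generated
by `B` if and only if there is a map `f : X ⟶ M` such that `π_k f` is bijective for all large `k`,
where `M` belongs to the thick subcategory generated by the spectra `P` of the following kind: there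
is a map `Y ⟶ P` which is bijective on `π_k` for all large `k`, and

* either `P` is a homotopy module over a complex oriented ring spectrum (not necessarily bounded
  below) and `Y` is an fp-spectrum of fp-type at most `n`,
* or `Y` is `p`-complete and bounded below, and `BP_* Y` has a finite filtration by subgroups stable
  under all operations of `BP`, with subquotients isomorphic, compatibly with the operations, to
  `BP_* Z` for fp-spectra `Z` of fp-type at most `n` which are homotopy modules over complex oriented
  ring spectra (`Z` may be different in every step; no module structure on `Y` is assumed).
-/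

namespace Vale.Agent.Results.P221.HahnWilson

open Vale.Agent.P251.St Vale.Agent.P251.St.SHCat Vale.Agent.P221.StI

theorem result : (∃ T : SHCat, Nonempty (Susp T)) ∧ ∀ (T : SHCat) (S : Susp T) (p n : ℕ), p.Prime →
    ∀ B X : T.C, IsStandardForm S p n B → IsFpType S p n X → (ThickOf (fun Y => Y = B) X ↔
      ∃ (M : T.C) (f : Hom X M), EvIso f ∧ ThickOf (IsGen S p n) M) :=
  ⟨nonempty_susp, fun _ _ _ _ hp _ _ hB hX => Vale.Agent.P221.E.H509.thick_iff hp hB hX⟩

end Vale.Agent.Results.P221.HahnWilson
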