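import Vale.Agent.P221.H658.E3
import Vale.Agent.P251.St.Result2

/-!
# P221: the thick subcategory generated by `BP⟨n⟩` and the `MU`-homology of spectra mod `p`

There is a stable homotopy category with a suspension spectrum functor; in each of them, for every
prime `p`, every `n ≥ 0` and every standard form `B` of the `p`-completed truncated Brown-Peterson
spectrum `BP⟨n⟩`: the thick subcategory generated by `B` is the thick subcategory generated by all
bounded below `p`-complete spectra `Y` such that `MU_* (Y / p)` has a finite filtration by subgroups
stable under all operations of `MU`, with subquotients isomorphic, compatibly with the operations, to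
`MU_* (Σ^{2l} B' / p)` for integers `l` and standard forms `B'` of `BP⟨n⟩` (both may be different in
every step). In particular all these `Y` belong to `Thick B`; no module structure on `Y` is assumed.

The statement uses only the definitions of `P251/T/Axioms.lean`, `P251/St/Base.lean`,
`P251/St/Chrom.lean`, `P257/H702/Statement.lean`, `P257/H702/LawDef.lean`,
`P257/H80/HazDefs.lean`, `P257/H80/StBP.lean`, `P221/St/LocA.lean` and `P221/St/Ext.lean`.
-/

namespace Vale.Agent.Results.P221.MUFiltered

open Vale.Agent.P251.St Vale.Agent.P221.StL

theorem result : (∃ T : SHCat, Nonempty (Susp T)) ∧ ∀ (T : SHCat) (S : Susp T) (p n : ℕ), p.Prime →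
    ∀ B X : T.C, IsStandardForm S p n B → (Thick B X ↔ ThickOf (IsMUExt S p n) X) :=
  ⟨nonempty_susp, fun _ _ _ _ hp _ X hB => Vale.Agent.P221.H658.thick_iff_isMUExt hp hB X⟩

end Vale.Agent.Results.P221.MUFiltered
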